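import Mathlib

/-!
# Nil ideals of finite dimensional algebras are nilpotent
-/

namespace Vale.Agent.P057.H973

theorem nil_ideal {R : Type} [Ring R] [Algebra ℚ R] [Module.Finite ℚ R] (I : Ideal R)
    [I.IsTwoSided] (h : ∀ z ∈ I, IsNilpotent z) : ∃ d : ℕ, I ^ d = ⊥ := by
  have : IsArtinianRing R := IsArtinianRing.of_finite ℚ R
  have h1 : I ≤ Ring.jacobson R := by
    rw [← Ideal.jacobson_bot]
    intro x hx
    rw [Ideal.mem_jacobson_iff]
    intro y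
    have hy : IsNilpotent (y * x) := h _ (I.mul_mem_left y hx)
    obtain ⟨u, hu⟩ := hy.isUnit_one_add
    refine ⟨((u⁻¹ : Rˣ) : R), ?_⟩
    have h2 : ((u⁻¹ : Rˣ) : R) * (1 + y * x) = 1 := by rw [← hu]; exact Units.inv_mul u
    have h3 : ((u⁻¹ : Rˣ) : R) * y * x + ((u⁻¹ : Rˣ) : R) - 1 = 0 := by
      rw [← h2]
      noncomm_ring
    rw [h3]
    exact Submodule.zero_mem _
  obtain ⟨d, hd⟩ := IsSemiprimaryRing.isNilpotent (R := R)
  refine ⟨d, ?_⟩
  rw [eq_bot_iff]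
  calc I ^ d ≤ (Ring.jacobson R) ^ d := Ideal.pow_right_mono h1 d
    _ = ⊥ := hd

end Vale.Agent.P057.H973
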